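import Vale.Agent.P236.Transport

/-! Relations among the classes `b_j`, `h_j` in the cohomology of the dual Steenrod algebra at
the prime `3`: `b_j³ = 0` for `j ≥ 2`, `b_{j+1}² h_j = 0`, and `b_j³ h₀ = 0` for `j ≥ 1`. -/

namespace Vale.Agent.Results.P236.TodaVanishing

open Vale.Agent.P236

theorem result :
    (∀ j, hCl j ∈ Coch 1 ∧ cobar 1 (hCl j) = 0) ∧
    (∀ j, bCl j ∈ Coch 2 ∧ cobar 2 (bCl j) = 0) ∧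
    (∀ j, ∃ c ∈ Coch 2,
      cup 1 (hCl (j + 1)) (bCl (j + 1)) - cup 2 (bCl j) (hCl (j + 2)) = cobar 2 c) ∧
    (∃ z : ℕ → U, ∀ j, z j ∈ Coch 3 ∧ cobar 3 (z j) = 0 ∧
      (∃ c ∈ Coch 3,
        cup 2 (bCl (j + 1)) (bCl (j + 1)) - cup 3 (z j) (hCl (j + 1)) = cobar 3 c) ∧
      (∃ c ∈ Coch 4, cup 3 (z (j + 1)) (bCl (j + 1)) = cobar 4 c)) ∧
    (∀ j, 2 ≤ j → ∃ c ∈ Coch 5, cup 4 (cup 2 (bCl j) (bCl j)) (bCl j) = cobar 5 c) ∧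
    (∀ j, ∃ c ∈ Coch 4, cup 4 (cup 2 (bCl (j + 1)) (bCl (j + 1))) (hCl j) = cobar 4 c) ∧
    (∀ j, 1 ≤ j →
      ∃ c ∈ Coch 6, cup 6 (cup 4 (cup 2 (bCl j) (bCl j)) (bCl j)) (hCl 0) = cobar 6 c) := by
  refine ⟨fun j => ⟨?_, ?_⟩, fun j => ⟨?_, ?_⟩, ?_, ?_, ?_, ?_, ?_⟩
  · rw [← phi_hh]; exact (isC_hh j).phi
  · rw [← phi_hh, ← phi_d, d_hh, map_zero]
  · rw [← phi_bb]; exact (isC_bb j).phi
  · rw [← phi_bb, ← phi_d, d_bb, map_zero]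
  · intro j
    obtain ⟨Z, hZ⟩ := rels_all
    obtain ⟨-, -, ⟨c, hc, h⟩, -⟩ := hZ j
    refine ⟨phi c, hc.phi, ?_⟩
    rw [← phi_bb, ← phi_bb, ← phi_hh, ← phi_hh, cup_phi, cup_phi, ← phi_d, ← h, map_sub]
  · obtain ⟨Z, hZ⟩ := rels_all
    refine ⟨fun j => phi (Z j), fun j => ?_⟩
    obtain ⟨h1, h2, -, ⟨c, hc, h⟩, ⟨e, he, g⟩⟩ := hZ j
    obtain ⟨h3, -⟩ := hZ (j + 1)
    refine ⟨h1.phi, by rw [← phi_d, h2, map_zero], ⟨phi c, hc.phi, ?_⟩, ⟨phi e, he.phi, ?_⟩⟩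
    · rw [← phi_bb, ← phi_hh, cup_phi, cup_phi, ← phi_d, ← h, map_sub]
    · rw [← phi_bb, cup_phi, ← phi_d, ← g]
  · intro j hj
    obtain ⟨m, rfl⟩ : ∃ m, j = m + 2 := ⟨j - 2, by omega⟩
    obtain ⟨c, hc, h⟩ := cube m
    refine ⟨phi c, hc.phi, ?_⟩
    rw [← phi_bb, cup_phi, cup_phi, ← phi_d, h]
  · intro j
    obtain ⟨c, hc, h⟩ := sq_mul_h j
    refine ⟨phi c, hc.phi, ?_⟩
    rw [← phi_bb, ← phi_hh, cup_phi, cup_phi, ← phi_d, h]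
  · intro j hj
    rw [← phi_bb, ← phi_hh]
    rcases Nat.lt_or_ge j 2 with h2 | h2
    · obtain rfl : j = 1 := by omega
      obtain ⟨c, hc, h⟩ := cube_mul_h_one
      exact ⟨phi c, hc.phi, by rw [cup_phi, cup_phi, cup_phi, ← phi_d, h]⟩
    · obtain ⟨m, rfl⟩ : ∃ m, j = m + 2 := ⟨j - 2, by omega⟩
      obtain ⟨c, hc, h⟩ := cube_mul_h m
      exact ⟨phi c, hc.phi, by rw [cup_phi, cup_phi, cup_phi, ← phi_d, h]⟩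

end Vale.Agent.Results.P236.TodaVanishing
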